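import Mathlib

/-!
# Items as a directed acyclic graph: evaluation, pending flows

An item `z` has a list `cs z` of signed constituents with smaller names. `ev cs h z` adds the
values `h y` over all descendants `y` of `z` with their signs; `chi cs re z e` is the signed number
of passes of `z` through the real arc `e`.
-/

namespace Vale.Agent.P305Q

open Finset

/-- The sign of a traversal. -/
def sg (b : Bool) : ℤ := if b then 1 else -1

@[simp] theorem sg_true : sg true = 1 := rfl
@[simp] theorem sg_false : sg false = -1 := rfl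
@[simp] theorem abs_sg (b : Bool) : |sg b| = 1 := by cases b <;> simp
@[simp] theorem natAbs_sg (b : Bool) : (sg b).natAbs = 1 := by cases b <;> simp
@[simp] theorem sg_not (b : Bool) : sg (!b) = -sg b := by cases b <;> simp
@[simp] theorem sg_mul_self (b : Bool) : sg b * sg b = 1 := by cases b <;> simp

/-- The signed sum of `v` along a list of signed items. -/
def ssum (v : ℕ → ℤ) (l : List (ℕ × Bool)) : ℤ := (l.map fun c => sg c.2 * v c.1).sum

@[simp] theorem ssum_nil (v : ℕ → ℤ) : ssum v [] = 0 := rfl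
@[simp] theorem ssum_cons (v : ℕ → ℤ) (c : ℕ × Bool) (l : List (ℕ × Bool)) :
    ssum v (c :: l) = sg c.2 * v c.1 + ssum v l := by simp [ssum]
@[simp] theorem ssum_append (v : ℕ → ℤ) (l l' : List (ℕ × Bool)) :
    ssum v (l ++ l') = ssum v l + ssum v l' := by simp [ssum]

theorem ssum_congr {v v' : ℕ → ℤ} {l : List (ℕ × Bool)} (h : ∀ c ∈ l, v c.1 = v' c.1) :
    ssum v l = ssum v' l := by
  unfold ssum
  exact congrArg List.sum (List.map_congr_left fun c hc => by rw [h c hc])

theorem ssum_sum {ι : Type} (E : Finset ι) (v : ι → ℕ → ℤ) (l : List (ℕ × Bool)) :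
    ∑ e ∈ E, ssum (v e) l = ssum (fun z => ∑ e ∈ E, v e z) l := by
  induction l with
  | nil => simp
  | cons c l ih => simp [sum_add_distrib, ih, mul_sum]

theorem ssum_mul (v : ℕ → ℤ) (w : ℤ) (l : List (ℕ × Bool)) :
    ssum v l * w = ssum (fun z => v z * w) l := by
  induction l with
  | nil => simp
  | cons c l ih => simp [add_mul, ih, mul_assoc]

theorem ssum_sub (v v' : ℕ → ℤ) (l : List (ℕ × Bool)) :
    ssum (fun z => v z - v' z) l = ssum v l - ssum v' l := by
  induction l with
  | nil => simp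
  | cons c l ih => simp only [ssum_cons, ih]; ring

/-- The unsigned sum of `v` along a list of signed items. -/
def nsum (v : ℕ → ℕ) (l : List (ℕ × Bool)) : ℕ := (l.map fun c => v c.1).sum

@[simp] theorem nsum_nil (v : ℕ → ℕ) : nsum v [] = 0 := rfl
@[simp] theorem nsum_cons (v : ℕ → ℕ) (c : ℕ × Bool) (l : List (ℕ × Bool)) :
    nsum v (c :: l) = v c.1 + nsum v l := by simp [nsum]
@[simp] theorem nsum_append (v : ℕ → ℕ) (l l' : List (ℕ × Bool)) :
    nsum v (l ++ l') = nsum v l + nsum v l' := by simp [nsum]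

theorem nsum_le {v v' : ℕ → ℕ} {l : List (ℕ × Bool)} (h : ∀ c ∈ l, v c.1 ≤ v' c.1) :
    nsum v l ≤ nsum v' l := by
  induction l with
  | nil => simp
  | cons c l ih =>
    have := h c (by simp)
    have := ih fun c hc => h c (by simp [hc])
    simp only [nsum_cons]; omega

theorem natAbs_ssum (v : ℕ → ℤ) (l : List (ℕ × Bool)) :
    (ssum v l).natAbs ≤ nsum (fun z => (v z).natAbs) l := by
  induction l with
  | nil => simp
  | cons c l ih =>
    simp only [ssum_cons, nsum_cons]
    refine (Int.natAbs_add_le _ _).trans ?_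
    rw [Int.natAbs_mul, natAbs_sg, one_mul]
    omega

theorem nsum_sum {ι : Type} (E : Finset ι) (v : ι → ℕ → ℕ) (l : List (ℕ × Bool)) :
    ∑ e ∈ E, nsum (v e) l = nsum (fun z => ∑ e ∈ E, v e z) l := by
  induction l with
  | nil => simp
  | cons c l ih => simp [sum_add_distrib, ih]

theorem nsum_mul (v : ℕ → ℕ) (w : ℕ) (l : List (ℕ × Bool)) :
    nsum v l * w = nsum (fun z => v z * w) l := by
  induction l with
  | nil => simp
  | cons c l ih => simp [add_mul, ih]

theorem exists_of_ssum_ne {v : ℕ → ℤ} {l : List (ℕ × Bool)} (h : ssum v l ≠ 0) :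
    ∃ c ∈ l, v c.1 ≠ 0 := by
  by_contra hc
  push Not at hc
  apply h
  rw [ssum_congr (v' := fun _ => 0) hc]
  simp [ssum]

/-- The table of the values of the items below `n`. -/
def tab (cs : ℕ → List (ℕ × Bool)) (h : ℕ → ℤ) : ℕ → ℕ → ℤ
  | 0 => fun _ => 0
  | n + 1 => Function.update (tab cs h n) n (h n + ssum (tab cs h n) (cs n))

/-- The signed sum of `h` over the descendants of `z`. -/
def ev (cs : ℕ → List (ℕ × Bool)) (h : ℕ → ℤ) (z : ℕ) : ℤ := tab cs h (z + 1) z

variable {cs cs' : ℕ → List (ℕ × Bool)} {h h' : ℕ → ℤ} {re re' : ℕ → Option ℕ} {n z : ℕ}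

theorem tab_eq (hz : z < n) : tab cs h n z = ev cs h z := by
  induction n with
  | zero => omega
  | succ n ih =>
    rcases Nat.lt_succ_iff_lt_or_eq.1 hz with h1 | rfl
    · rw [tab, Function.update_of_ne h1.ne, ih h1]
    · rfl

theorem ev_eq (hz : ∀ c ∈ cs z, c.1 < z) : ev cs h z = h z + ssum (ev cs h) (cs z) := by
  rw [ev, tab, Function.update_self, ssum_congr fun c hc => tab_eq (hz c hc)]

theorem tab_congr (h1 : ∀ y < n, cs y = cs' y) (h2 : ∀ y < n, h y = h' y) :
    tab cs h n = tab cs' h' n := by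
  induction n with
  | zero => rfl
  | succ n ih =>
    rw [tab, tab, ih (fun y hy => h1 y (by omega)) (fun y hy => h2 y (by omega)),
      h1 n (by omega), h2 n (by omega)]

/-- The value of an item depends only on the items created before. -/
theorem ev_congr (h1 : ∀ y ≤ z, cs y = cs' y) (h2 : ∀ y ≤ z, h y = h' y) :
    ev cs h z = ev cs' h' z := by
  rw [ev, ev, tab_congr (fun y hy => h1 y (by omega)) fun y hy => h2 y (by omega)]

/-- The constituents have smaller names. -/
def Dag (cs : ℕ → List (ℕ × Bool)) (n : ℕ) : Prop := ∀ z < n, ∀ c ∈ cs z, c.1 < z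

/-- The signed number of passes of the item `z` through the real arc `e`. -/
def chi (cs : ℕ → List (ℕ × Bool)) (re : ℕ → Option ℕ) (z e : ℕ) : ℤ :=
  ev cs (fun y => if re y = some e then 1 else 0) z

theorem chi_eq (hz : ∀ c ∈ cs z, c.1 < z) (e : ℕ) : chi cs re z e =
    (if re z = some e then 1 else 0) + ssum (fun y => chi cs re y e) (cs z) := ev_eq hz

theorem chi_real {e' : ℕ} (h0 : cs z = []) (h1 : re z = some e') (e : ℕ) :
    chi cs re z e = if e = e' then 1 else 0 := by
  rw [chi_eq (by simp [h0]), h0, h1]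
  simp [eq_comm]

theorem chi_virt (hz : ∀ c ∈ cs z, c.1 < z) (h1 : re z = none) (e : ℕ) :
    chi cs re z e = ssum (fun y => chi cs re y e) (cs z) := by
  rw [chi_eq hz, h1]; simp

theorem chi_congr (h1 : ∀ y ≤ z, cs y = cs' y) (h2 : ∀ y ≤ z, re y = re' y) (e : ℕ) :
    chi cs re z e = chi cs' re' z e := ev_congr h1 fun y hy => by rw [h2 y hy]

/-- A quantity that is additive along constituents is the sum over the real arcs. The set `ok` of
items is closed under constituents. -/
theorem sum_chi {ok : ℕ → Prop} (hd : Dag cs n) (E : Finset ℕ) (w v : ℕ → ℤ)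
    (hok : ∀ y < n, ok y → ∀ c ∈ cs y, ok c.1)
    (h0 : ∀ y < n, ok y → re y = none → v y = ssum v (cs y))
    (h1 : ∀ y < n, ok y → ∀ e, re y = some e → cs y = [] ∧ e ∈ E ∧ v y = w e)
    (hz : z < n) (hk : ok z) : ∑ e ∈ E, chi cs re z e * w e = v z := by
  induction z using Nat.strong_induction_on with
  | _ z ih =>
    cases hr : re z with
    | none =>
      simp only [chi_virt (hd z hz) hr, ssum_mul, ssum_sum]
      rw [h0 z hz hk hr]
      exact ssum_congr fun c hc => ih _ (hd z hz c hc) ((hd z hz c hc).trans hz) (hok z hz hk c hc)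
    | some e' =>
      obtain ⟨a1, a2, a3⟩ := h1 z hz hk e' hr
      simp [chi_real a1 hr, a2, a3]

/-- The length of an item dominates the lengths of the arcs that it passes. -/
theorem sum_chi_len {ok : ℕ → Prop} (hd : Dag cs n) (E : Finset ℕ) (w len : ℕ → ℕ)
    (hok : ∀ y < n, ok y → ∀ c ∈ cs y, ok c.1)
    (h0 : ∀ y < n, ok y → nsum len (cs y) ≤ len y)
    (h1 : ∀ y < n, ok y → ∀ e, re y = some e → cs y = [] ∧ w e ≤ len y)
    (hz : z < n) (hk : ok z) : ∑ e ∈ E, (chi cs re z e).natAbs * w e ≤ len z := by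
  induction z using Nat.strong_induction_on with
  | _ z ih =>
    cases hr : re z with
    | none =>
      simp only [chi_virt (hd z hz) hr]
      refine (sum_le_sum fun e _ => Nat.mul_le_mul_right _ (natAbs_ssum _ _)).trans ?_
      simp only [nsum_mul, nsum_sum]
      refine (nsum_le fun c hc => ?_).trans (h0 z hz hk)
      exact ih _ (hd z hz c hc) ((hd z hz c hc).trans hz) (hok z hz hk c hc)
    | some e' =>
      obtain ⟨a1, a2⟩ := h1 z hz hk e' hr
      simp only [chi_real a1 hr]
      refine le_trans ?_ a2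
      by_cases he : e' ∈ E
      · rw [sum_eq_single e' (fun e _ h => by simp [h]) (fun h => (h he).elim)]; simp
      · rw [sum_eq_zero fun e h => by
          have : e ≠ e' := fun q => he (q ▸ h)
          simp [this]]
        omega

/-- The number of valid items that pass through an arc. -/
theorem card_anc {ok : ℕ → Prop} [DecidablePred ok] (hd : Dag cs n) (dep : ℕ → ℕ)
    (par : ℕ → Finset ℕ) (p e y₀ : ℕ)
    (hok : ∀ y < n, ok y → ∀ c ∈ cs y, ok c.1 ∧ dep c.1 < dep y ∧ y ∈ par c.1)
    (hp : ∀ y < n, ok y → (par y).card ≤ p)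
    (h1 : ∀ y < n, ok y → re y = some e → y = y₀) (D : ℕ) :
    ((range n).filter fun y => ok y ∧ dep y ≤ D ∧ chi cs re y e ≠ 0).card ≤ (p + 1) ^ D := by
  have key : ∀ y < n, ok y → chi cs re y e ≠ 0 →
      y = y₀ ∨ ∃ c ∈ cs y, chi cs re c.1 e ≠ 0 := by
    intro y hy hk hc
    by_cases hr : re y = some e
    · exact Or.inl (h1 y hy hk hr)
    · rw [chi_eq (hd y hy), if_neg hr, zero_add] at hc
      exact Or.inr (exists_of_ssum_ne hc)
  induction D with
  | zero =>
    rw [pow_zero]
    refine (card_le_card (t := {y₀}) fun y hy => ?_).trans (by simp)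
    simp only [mem_filter, mem_range] at hy
    rcases key y hy.1 hy.2.1 hy.2.2.2 with h | ⟨c, hc, -⟩
    · simp [h]
    · have := (hok y hy.1 hy.2.1 c hc).2.1
      omega
  | succ D ih =>
    set S := (range n).filter fun y => ok y ∧ dep y ≤ D ∧ chi cs re y e ≠ 0
    refine (card_le_card (t := insert y₀ (S.biUnion par)) fun y hy => ?_).trans ?_
    · simp only [mem_filter, mem_range] at hy
      rcases key y hy.1 hy.2.1 hy.2.2.2 with h | ⟨c, hc, h⟩
      · simp [h]
      · obtain ⟨a1, a2, a3⟩ := hok y hy.1 hy.2.1 c hc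
        refine mem_insert_of_mem (mem_biUnion.2 ⟨c.1, ?_, a3⟩)
        simp only [S, mem_filter, mem_range]
        exact ⟨(hd y hy.1 c hc).trans hy.1, a1, by omega, h⟩
    · refine (card_insert_le _ _).trans ?_
      have a := card_biUnion_le_card_mul S par p fun y hy => by
        simp only [S, mem_filter, mem_range] at hy
        exact hp y hy.1 hy.2.1
      have b : 1 ≤ (p + 1) ^ D := Nat.one_le_pow _ _ (by omega)
      have c := Nat.mul_le_mul_right p ih
      rw [pow_succ, mul_add]
      omega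

/-! ### Pending flows -/

/-- The flow on the arc `e` that is still pending on the items below `n`. -/
def pnd (cs : ℕ → List (ℕ × Bool)) (re : ℕ → Option ℕ) (n : ℕ) (F : ℕ → ℤ) (e : ℕ) : ℤ :=
  ∑ z ∈ range n, F z * chi cs re z e

/-- Adding `a` on the item `z`. -/
def bump (F : ℕ → ℤ) (z : ℕ) (a : ℤ) : ℕ → ℤ := Function.update F z (F z + a)

/-- Adding `a` along a list of signed items. -/
def push (F : ℕ → ℤ) (a : ℤ) (l : List (ℕ × Bool)) : ℕ → ℤ :=
  l.foldl (fun F c => bump F c.1 (sg c.2 * a)) F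

@[simp] theorem push_nil (F : ℕ → ℤ) (a : ℤ) : push F a [] = F := rfl
@[simp] theorem push_cons (F : ℕ → ℤ) (a : ℤ) (c : ℕ × Bool) (l : List (ℕ × Bool)) :
    push F a (c :: l) = push (bump F c.1 (sg c.2 * a)) a l := rfl

theorem bump_apply (F : ℕ → ℤ) (z : ℕ) (a : ℤ) (y : ℕ) :
    bump F z a y = F y + if y = z then a else 0 := by
  unfold bump
  split_ifs with q
  · subst q; simp
  · simp [q]

theorem push_apply (F : ℕ → ℤ) (a : ℤ) (l : List (ℕ × Bool)) (y : ℕ) :
    push F a l y = F y + ssum (fun x => if y = x then a else 0) l := by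
  induction l generalizing F with
  | nil => simp
  | cons c l ih =>
    rw [push_cons, ih, bump_apply, ssum_cons]
    split_ifs <;> ring

theorem push_of_notMem {F : ℕ → ℤ} {a : ℤ} {l : List (ℕ × Bool)} {y : ℕ}
    (hy : ∀ c ∈ l, c.1 ≠ y) : push F a l y = F y := by
  rw [push_apply, ssum_congr (v' := fun _ => 0) fun c hc => if_neg (hy c hc).symm]
  simp [ssum]

theorem natAbs_push (F : ℕ → ℤ) (a : ℤ) (l : List (ℕ × Bool)) (y : ℕ) :
    (push F a l y).natAbs ≤ (F y).natAbs + nsum (fun x => if y = x then a.natAbs else 0) l := by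
  rw [push_apply]
  refine (Int.natAbs_add_le _ _).trans (Nat.add_le_add_left ((natAbs_ssum _ _).trans
    (nsum_le fun c _ => ?_)) _)
  split_ifs <;> simp

theorem sum_bump (hz : z < n) (F v : ℕ → ℤ) (a : ℤ) :
    ∑ y ∈ range n, bump F z a y * v y = ∑ y ∈ range n, F y * v y + a * v z := by
  simp only [bump_apply, add_mul, sum_add_distrib, ite_mul, zero_mul]
  rw [sum_ite_eq' (range n) z, if_pos (mem_range.2 hz)]

theorem sum_push {l : List (ℕ × Bool)} (hl : ∀ c ∈ l, c.1 < n) (F v : ℕ → ℤ) (a : ℤ) :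
    ∑ y ∈ range n, push F a l y * v y = ∑ y ∈ range n, F y * v y + a * ssum v l := by
  induction l generalizing F with
  | nil => simp
  | cons c l ih =>
    rw [push_cons, ih fun c hc => hl c (by simp [hc]), sum_bump (hl c (by simp)), ssum_cons]
    ring

theorem pnd_bump (hz : z < n) (F : ℕ → ℤ) (a : ℤ) (e : ℕ) :
    pnd cs re n (bump F z a) e = pnd cs re n F e + a * chi cs re z e := sum_bump hz _ _ _

theorem pnd_push {l : List (ℕ × Bool)} (hl : ∀ c ∈ l, c.1 < n) (F : ℕ → ℤ) (a : ℤ) (e : ℕ) :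
    pnd cs re n (push F a l) e = pnd cs re n F e + a * ssum (fun y => chi cs re y e) l :=
  sum_push hl _ _ _

/-- Moving the pending flow of `z` to its constituents. -/
def flush (cs : ℕ → List (ℕ × Bool)) (F : ℕ → ℤ) (z : ℕ) : ℕ → ℤ :=
  push (Function.update F z 0) (F z) (cs z)

theorem update_zero (F : ℕ → ℤ) (z : ℕ) : Function.update F z 0 = bump F z (-F z) := by
  simp [bump]

/-- A flush changes the pending flow only on the arc of a real item. -/
theorem pnd_flush (hd : Dag cs n) (hz : z < n) (F : ℕ → ℤ) (e : ℕ) :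
    pnd cs re n (flush cs F z) e = pnd cs re n F e - if re z = some e then F z else 0 := by
  rw [flush, pnd_push fun c hc => (hd z hz c hc).trans hz, update_zero, pnd_bump hz,
    chi_eq (hd z hz)]
  split_ifs <;> ring

theorem flush_self (hz : ∀ c ∈ cs z, c.1 < z) (F : ℕ → ℤ) : flush cs F z z = 0 := by
  rw [flush, push_of_notMem fun c hc => (hz c hc).ne, Function.update_self]

theorem flush_of_notMem {F : ℕ → ℤ} {y : ℕ} (h1 : y ≠ z) (hy : ∀ c ∈ cs z, c.1 ≠ y) :
    flush cs F z y = F y := by
  rw [flush, push_of_notMem hy, Function.update_of_ne h1]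

/-- New items without pending flow do not change anything. -/
theorem pnd_congr {n' : ℕ} {F F' : ℕ → ℤ} (hn : n ≤ n') (h1 : ∀ y < n, cs y = cs' y)
    (h2 : ∀ y < n, re y = re' y) (h3 : ∀ y < n, F y = F' y) (h4 : ∀ y, n ≤ y → y < n' → F' y = 0)
    (e : ℕ) : pnd cs' re' n' F' e = pnd cs re n F e := by
  unfold pnd
  rw [← sum_subset (range_subset_range.2 hn) fun y hy hy' => by
    rw [h4 y (by simpa using hy') (by simpa using hy), zero_mul]]
  refine sum_congr rfl fun y hy => ?_
  have hy := mem_range.1 hy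
  rw [h3 y hy, chi_congr (cs := cs) (re := re) (fun x hx => h1 x (by omega))
    fun x hx => h2 x (by omega)]

/-- The undetected flow: if no valid item is over the threshold, then the pending flow on an arc
is small. -/
theorem pnd_small {ok : ℕ → Prop} [DecidablePred ok] {F : ℕ → ℤ} {len : ℕ → ℕ} {e w th A : ℕ}
    (h0 : ∀ y < n, ¬ ok y → F y = 0) (h1 : ∀ y < n, ok y → (F y).natAbs * len y ≤ th)
    (h2 : ∀ y < n, ok y → (chi cs re y e).natAbs * w ≤ len y)
    (hA : ((range n).filter fun y => ok y ∧ chi cs re y e ≠ 0).card ≤ A) :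
    (pnd cs re n F e).natAbs * w ≤ A * th := by
  unfold pnd
  rw [← sum_filter_of_ne (p := fun y => ok y ∧ chi cs re y e ≠ 0) fun y hy q => by
    refine ⟨by_contra fun k => q ?_, fun k => q (by rw [k, mul_zero])⟩
    rw [h0 y (mem_range.1 hy) k, zero_mul]]
  refine (Nat.mul_le_mul_right _ (Int.natAbs_sum_le _ _)).trans ?_
  rw [sum_mul]
  refine (sum_le_card_nsmul _ _ th fun y hy => ?_).trans (Nat.mul_le_mul_right _ hA)
  simp only [mem_filter, mem_range] at hy
  rw [Int.natAbs_mul, mul_assoc]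
  exact (Nat.mul_le_mul_left _ (h2 y hy.1 hy.2.1)).trans (h1 y hy.1 hy.2.1)

/-- The weighted mass of the pending flows. -/
def mass (n : ℕ) (w : ℕ → ℕ) (F : ℕ → ℤ) : ℕ := ∑ y ∈ range n, (F y).natAbs * w y

theorem mass_push {l : List (ℕ × Bool)} (w : ℕ → ℕ) (F : ℕ → ℤ) (a : ℤ) :
    mass n w (push F a l) ≤ mass n w F + a.natAbs * nsum w l := by
  unfold mass
  refine (sum_le_sum fun y _ => Nat.mul_le_mul_right _ (natAbs_push F a l y)).trans ?_
  simp only [add_mul, sum_add_distrib, nsum_mul, nsum_sum, ite_mul, zero_mul]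
  rw [mul_comm a.natAbs, nsum_mul]
  refine Nat.add_le_add_left (nsum_le fun c _ => ?_) _
  rw [sum_ite_eq' (range n) c.1]
  split_ifs
  · rw [mul_comm]
  · omega

theorem mass_zero (hz : z < n) (w : ℕ → ℕ) (F : ℕ → ℤ) :
    mass n w (Function.update F z 0) + (F z).natAbs * w z = mass n w F := by
  unfold mass
  rw [← add_sum_erase _ _ (mem_range.2 hz), ← add_sum_erase _ _ (mem_range.2 hz),
    sum_congr rfl fun y hy => by rw [Function.update_of_ne (ne_of_mem_erase hy)]]
  simp [add_comm]

theorem mass_flush (hz : z < n) (w : ℕ → ℕ) (F : ℕ → ℤ) :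
    mass n w (flush cs F z) + (F z).natAbs * w z ≤
      mass n w F + (F z).natAbs * nsum w (cs z) := by
  have := mass_push (n := n) (l := cs z) w (Function.update F z 0) (F z)
  have := mass_zero hz w F
  unfold flush
  omega

theorem mass_congr {n' : ℕ} {F F' : ℕ → ℤ} {w w' : ℕ → ℕ} (hn : n ≤ n')
    (h1 : ∀ y < n, w y = w' y) (h3 : ∀ y < n, F y = F' y)
    (h4 : ∀ y, n ≤ y → y < n' → F' y = 0) : mass n' w' F' = mass n w F := by
  unfold mass
  rw [← sum_subset (range_subset_range.2 hn) fun y hy hy' => by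
    rw [h4 y (by simpa using hy') (by simpa using hy)]; simp]
  exact sum_congr rfl fun y hy => by rw [h3 y (mem_range.1 hy), h1 y (mem_range.1 hy)]

theorem le_mass (hz : z < n) (w : ℕ → ℕ) (F : ℕ → ℤ) : (F z).natAbs * w z ≤ mass n w F :=
  single_le_sum (f := fun y => (F y).natAbs * w y) (fun _ _ => Nat.zero_le _) (mem_range.2 hz)

/-- With the weights `len * (dep + 1)` a flush of `z` gains `|F z| * len z`. -/
theorem nsum_weight {len dep : ℕ → ℕ} (h0 : nsum len (cs z) ≤ len z)
    (h1 : ∀ c ∈ cs z, dep c.1 < dep z) :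
    nsum (fun y => len y * (dep y + 1)) (cs z) + len z ≤ len z * (dep z + 1) := by
  have a : nsum (fun y => len y * (dep y + 1)) (cs z) ≤ nsum (fun y => len y * dep z) (cs z) :=
    nsum_le fun c hc => Nat.mul_le_mul_left _ (h1 c hc)
  rw [← nsum_mul] at a
  have := Nat.mul_le_mul_right (dep z) h0
  rw [mul_add]
  omega

theorem mass_flush_dep {len dep : ℕ → ℕ} (hz : z < n) (h0 : nsum len (cs z) ≤ len z)
    (h1 : ∀ c ∈ cs z, dep c.1 < dep z) (F : ℕ → ℤ) :
    mass n (fun y => len y * (dep y + 1)) (flush cs F z) + (F z).natAbs * len z ≤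
      mass n (fun y => len y * (dep y + 1)) F := by
  have a := mass_flush (cs := cs) hz (fun y => len y * (dep y + 1)) F
  have b := Nat.mul_le_mul_left (F z).natAbs (nsum_weight h0 h1)
  rw [mul_add] at b
  omega

end Vale.Agent.P305Q
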