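import Vale.Agent.P305Q.Fok

/-!
# The engine from its core
-/

namespace Vale.Agent.P305Q

open Vale.Agent.P305E Vale.Agent.P305C Vale.Agent.P305M Finset

/-- The state: core, `(b, η)`, flows. -/
abbrev St (σ : Type) := σ × (ℕ × ℕ) × Fs

section prog
variable {σ : Type} (cs : σ → ℕ → List (ℕ × Bool)) (re : σ → ℕ → Option ℕ) (len dep : σ → ℕ → ℕ)
  (g : σ → ℕ → ℤ) (bad : σ → ℕ → Bool)

/-- The start. -/
def initE (init : ℕ → ℕ → P305E.M σ) (b κ η : ℕ) : P305E.M (St σ) := do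
  let s ← init b κ
  pure (s, (b, η), Arr.const 0, Arr.const 0, [])

/-- The insertion of an arc. -/
def insE (add : σ → ℕ → RA → P305E.M (List ℕ × σ)) (s : St σ) (e : ℕ) (a : RA) :
    P305E.M (St σ) := do
  let o ← add s.1 e a
  let f ← flushL (cs o.2) (re o.2) (dep o.2) s.2.2 o.1
  pure (o.2, s.2.1, f)

/-- The removal of the real item `z`. -/
def killE (kill : σ → ℕ → P305E.M (List ℕ × σ)) (s : St σ) (z : ℕ) :
    P305E.M (Option (Option (ℕ × ℤ)) × St σ) := do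
  let f ← flushP (cs s.1) (re s.1) s.2.2 z
  let o ← kill s.1 z
  let f' ← flushL (cs o.2) (re o.2) (dep o.2) f o.1
  pure (some (some ((re s.1 z).getD 0, f'.2.1.get ((re s.1 z).getD 0))),
    o.2, s.2.1, f'.1, f'.2.1.set ((re s.1 z).getD 0) 0, f'.2.2)

/-- The move round a candidate. -/
def candE (cand : σ → P305E.M (Option (List (ℕ × Bool) × ℕ) × σ)) (s : St σ) :
    P305E.M (Option (Option (ℕ × ℤ)) × St σ) := do
  let o ← cand s.1
  o.1.elim (pure (none, o.2, s.2)) fun p => do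
    let f ← moveP (g s.1) s.2.1.2 s.2.2 p.1 p.2
    pure (some none, o.2, s.2.1, f)

/-- One step. -/
def stepE (fuel : St σ → ℕ) (kill : σ → ℕ → P305E.M (List ℕ × σ))
    (cand : σ → P305E.M (Option (List (ℕ × Bool) × ℕ) × σ)) (s : St σ) :
    P305E.M (Option (Option (ℕ × ℤ)) × St σ) := do
  let r ← drain (fuel s) (cs s.1) (re s.1) (len s.1) (bad s.1) s.2.1.2 s.2.2
  r.1.elim (candE g cand (s.1, s.2.1, r.2)) fun z => killE cs re dep kill (s.1, s.2.1, r.2) z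

variable {cs re len dep g bad} [Rep σ]

theorem impl_initE {init : ℕ → ℕ → P305E.M σ} (h : Impl fun p : ℕ × ℕ => init p.1 p.2) :
    Impl fun p : ℕ × ℕ × ℕ => initE init p.1 p.2.1 p.2.2 := by
  unfold initE; fun_prop

theorem impl_insE {add : σ → ℕ → RA → P305E.M (List ℕ × σ)}
    (hc : Pure fun p : σ × ℕ => cs p.1 p.2) (hr : Pure fun p : σ × ℕ => re p.1 p.2)
    (hd : Pure fun p : σ × ℕ => dep p.1 p.2)
    (h : Impl fun p : σ × ℕ × RA => add p.1 p.2.1 p.2.2) :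
    Impl fun p : St σ × ℕ × RA => insE cs re dep add p.1 p.2.1 p.2.2 := by
  unfold insE; fun_prop

theorem impl_stepE {fuel : St σ → ℕ} {kill : σ → ℕ → P305E.M (List ℕ × σ)}
    {cand : σ → P305E.M (Option (List (ℕ × Bool) × ℕ) × σ)}
    (hc : Pure fun p : σ × ℕ => cs p.1 p.2) (hr : Pure fun p : σ × ℕ => re p.1 p.2)
    (hl : Pure fun p : σ × ℕ => len p.1 p.2) (hd : Pure fun p : σ × ℕ => dep p.1 p.2)
    (hg : Pure fun p : σ × ℕ => g p.1 p.2) (hb : Pure fun p : σ × ℕ => bad p.1 p.2)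
    (hk : Impl fun p : σ × ℕ => kill p.1 p.2) (ha : Impl cand) :
    Impl (stepE cs re len dep g bad fuel kill cand) := by
  unfold stepE killE candE; fun_prop

end prog

variable {σ : Type} [Rep σ] {X : Core σ} {c : ℕ} {g : ℕ → ℕ}
  {I : ℕ → ℕ → ℕ → Gh → σ → ℕ → Prop}

/-- The engine. -/
def eng (X : Core σ) (g : ℕ → ℕ) : Eng (St σ) where
  init := initE X.init
  ins := insE (fun s => (X.view s).cs) (fun s => (X.view s).re) (fun s => (X.view s).dep) X.add
  step := stepE (fun s => (X.view s).cs) (fun s => (X.view s).re) (fun s => (X.view s).len)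
    (fun s => (X.view s).dep) (fun s => (X.view s).g) (fun s => (X.view s).bad)
    (fun s => s.2.2.2.2.length + (g s.2.1.1 + 1) * pt (X.view s.1) s.2.2 + 1) X.kill X.cand

/-- The credit for time of the flows. -/
def cred (Γ η p : ℕ) : ℕ := 3 * Γ * p / (η + 1)

theorem cred_mono {Γ η p p' : ℕ} (h : p ≤ p') : cred Γ η p ≤ cred Γ η p' :=
  Nat.div_le_div_right (Nat.mul_le_mul_left _ h)

theorem cred_add {Γ η p p' : ℕ} (h : p ≤ p' + η * (Γ + 1)) :
    cred Γ η p ≤ cred Γ η p' + 3 * Γ * (Γ + 1) := by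
  unfold cred
  rw [← Nat.add_mul_div_right _ _ (Nat.succ_pos η)]
  exact Nat.div_le_div_right (by nlinarith)

theorem cred_pay {Γ η p p' a a' : ℕ} (h : (η + 1) * a + 3 * Γ * p ≤ (η + 1) * a' + 3 * Γ * p') :
    a + cred Γ η p ≤ a' + cred Γ η p' := by
  unfold cred
  rw [add_comm a, add_comm a', ← Nat.add_mul_div_left _ _ (Nat.succ_pos η),
    ← Nat.add_mul_div_left _ _ (Nat.succ_pos η)]
  exact Nat.div_le_div_right (by simp only [Nat.succ_eq_add_one]; omega)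

/-- The invariant of the engine. -/
structure Inv (X : Core σ) (c : ℕ) (g : ℕ → ℕ) (I : ℕ → ℕ → ℕ → Gh → σ → ℕ → Prop)
    (B b κ η : ℕ) (G : Gh) (s : St σ) (r φ : ℕ) : Prop where
  par : s.2.1 = (b, η)
  fok : FOK (X.view s.1) G η s.2.2
  rem : pt (X.view s.1) s.2.2 ≤ r * (η + 1)
  bd : pt (X.view s.1) s.2.2 ≤ (2 ^ (c * (b + 1)) + 1) * (η * (g b + 1))
  eta : 2 ^ (c * (b + 1)) ≤ η
  big : 2 * ((2 ^ (c * (b + 1)) + 1) * (η * (g b + 1))) ≤ B
  core : ∃ ψ, I B b κ G s.1 ψ ∧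
    W (g b) * ψ + s.2.2.2.2.length + cred (g b) η (pt (X.view s.1) s.2.2) ≤ φ

/-- The overhead of the engine. -/
def gE (g : ℕ → ℕ) (b : ℕ) : ℕ := 20 * (g b + 1) ^ 3

theorem gE_ge (g : ℕ → ℕ) (b : ℕ) :
    W (g b) * g b + 3 * g b * (g b + 1) + 5 * g b + 1 ≤ gE g b := by
  unfold gE W
  generalize g b = x
  nlinarith [Nat.zero_le (x ^ 3), Nat.zero_le (x ^ 2)]

theorem one_le_W (Γ : ℕ) : 1 ≤ W Γ := Nat.le_add_left _ _

omit [P305E.Rep σ] in
theorem Inv.gam {B b κ η : ℕ} {G : Gh} {s : St σ} {r φ : ℕ} (h : Inv X c g I B b κ η G s r φ) :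
    g b + 1 ≤ B := by
  have a : 1 ≤ η := le_trans Nat.one_le_two_pow h.eta
  have a1 : g b + 1 ≤ η * (g b + 1) := Nat.le_mul_of_pos_left _ a
  have a2 : η * (g b + 1) ≤ (2 ^ (c * (b + 1)) + 1) * (η * (g b + 1)) :=
    Nat.le_mul_of_pos_left _ (Nat.succ_pos _)
  have := h.big
  omega

theorem pay_core {Wd t l ψ ψ' Γ : ℕ} (h1 : 1 ≤ Wd) (h : t + l + ψ' ≤ ψ + Γ) :
    t + Wd * l + Wd * ψ' ≤ Wd * ψ + Wd * Γ := by
  have := Nat.mul_le_mul_left Wd h
  have := Nat.le_mul_of_pos_left t h1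
  nlinarith

theorem ins_vt (h : CoreOK X c g I) {B b κ η : ℕ} {G : Gh} {s : St σ} {r φ e : ℕ} {a : RA}
    (i : Inv X c g I B b κ η G s r φ) (h1 : G.n < 2 ^ b) (h2 : e ∉ G.al) (h3 : e ≤ 2 ^ b)
    (h4 : a.1 ≤ 2 ^ b) (h5 : a.2.1 ≤ 2 ^ b) (h6 : 1 ≤ a.2.2.1) (h7 : a.2.2.1 ≤ 2 ^ b)
    (h8 : a.2.2.2.natAbs ≤ 2 ^ b) : Vt b B ((eng X g).ins s e a) fun s' t =>
      ∃ φ', Inv X c g I B b κ η (G.ins e a) s' r φ' ∧ t + φ' ≤ φ + gE g b := by
  obtain ⟨ψ, i1, i2⟩ := i.core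
  refine (h.add B b κ G s.1 ψ e a i1 h1 h2 h3 h4 h5 h6 h7 h8).bind ?_
  rintro o t ⟨x, o1, ψ', o2, o3⟩
  have k := (h.ok _ _ _ _ _ _ i1).1
  have k' := (h.ok _ _ _ _ _ _ o2).1
  have b1 := i.bd
  have b2 := i.big
  refine Vt.tbind (cn := true) (flushL_tri k k' x i.fok.qu i.fok.cl (i.fok.tr_le k)
    (show _ ≤ B by omega) i.gam) ?_
  rintro f t' ⟨q1, q2, q3, q4, q5, q6⟩
  refine Vt.pure ⟨_, ⟨i.par, ⟨q4, q5, fun e' => ?_, fun e' he => ?_⟩, q3.trans i.rem, q3.trans b1,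
    i.eta, b2, ψ', o2, le_rfl⟩, ?_⟩
  · exact (q2 e' fun z hz => by simp [o1 z hz]).trans (i.fok.xh e')
  · refine Eq.trans ?_ (q1 e').symm
    by_cases q : e' = e
    · subst q
      rw [tr, tru, i.fok.xh, pnd_zero k i.fok.cl h2]
      simp [Gh.ins]
    · rw [← i.fok.dl e' ((mem_insert.1 he).resolve_left q)]
      simp [Gh.ins, q]
  · have := cred_mono (Γ := g b) (η := η) q3
    have := pay_core (one_le_W (g b)) o3
    have := gE_ge g b
    simp only
    omega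

theorem kill_vt (h : CoreOK X c g I) {B b κ η : ℕ} {G : Gh} {s : St σ} {r φ z : ℕ}
    (i : Inv X c g I B b κ η G s r φ) (hz : (X.view s.1).ok z)
    (hr : ((X.view s.1).re z).isSome = true) (ht : η < (s.2.2.1.get z).natAbs * (X.view s.1).len z) :
    Vt b B (killE (fun s => (X.view s).cs) (fun s => (X.view s).re) (fun s => (X.view s).dep)
      X.kill s z) fun o t => ∃ e d, o.1 = some (some (e, d)) ∧ e ∈ G.al ∧ d = G.dl e ∧
        ∃ r' φ', r = r' + 1 ∧ Inv X c g I B b κ η (G.del e) o.2 r' φ' ∧ t + φ' ≤ φ + gE g b := by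
  obtain ⟨ψ, i1, i2⟩ := i.core
  obtain ⟨e, he⟩ := Option.isSome_iff_exists.1 hr
  have k := (h.ok _ _ _ _ _ _ i1).1
  have b1 := i.bd
  have b2 := i.big
  refine Vt.tbind (cn := true) (flushP_tri (items k) hz.1 (i.fok.tr_le k)
    (show _ + pt (X.view s.1) s.2.2 ≤ B by omega)) ?_
  rintro f t₁ ⟨r1, r2, r3, r4, r5, r6⟩
  refine (h.kill B b κ G s.1 ψ z e i1 hz he).bind ?_
  rintro o t₂ ⟨x, o0, o1, ψ', o2, o3⟩
  have k' := (h.ok _ _ _ _ _ _ o2).1
  have r0 := k.rcs z hz.1 e he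
  have p1 : pt (X.view s.1) f + (η + 1) ≤ pt (X.view s.1) s.2.2 :=
    le_trans (Nat.add_le_add_left ht _) r4
  have hc : Clean (X.view s.1).n (X.view s.1).bad f := fun y hy => by
    rw [r1, flush_of_notMem, i.fok.cl y hy]
    · rintro rfl
      have := hz.1
      rcases hy with hy | hy
      · omega
      · simp [hz.2] at hy
    · simp [r0]
  refine Vt.tbind (cn := true) (flushL_tri k k' x (X := pt (X.view s.1) s.2.2)
    (Qu.flush (items k) hz.1 i.fok.qu.lt (fun y a b d => Or.inr (i.fok.qu.mem y a b d)) r1 r5) hc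
    (fun e' => by rw [tr, r2]; exact i.fok.tr_le k e') (show _ ≤ B by omega) i.gam) ?_
  rintro f' t₃ ⟨q1, q2, q3, q4, q5, q6⟩
  have ha := (k.real z hz e he).1
  have b3 := i.rem
  obtain ⟨r', rfl⟩ : ∃ r', r = r' + 1 := ⟨r - 1, by
    rcases r with _ | r
    · omega
    · rfl⟩
  have xe : ∀ e', e' ≠ e → f'.2.1.get e' = 0 := fun e' q => by
    rw [q2 e' fun y hy => ?_, r3 e' (by simp [he, q.symm]), i.fok.xh]
    rcases o1 y hy with a | rfl
    · simp [a]
    · simp [x.re y hz.1, he, q.symm]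
  refine Vt.pure ⟨e, f'.2.1.get e, by simp [he], ha, ?_, r', _, rfl,
    ⟨i.par, ⟨⟨q4.lt, q4.mem⟩, q5, fun e' => ?_, fun e' he' => ?_⟩, ?_, ?_, i.eta, b2, ψ', o2,
      le_rfl⟩, ?_⟩
  · have := q1 e
    rw [tr, tru, pnd_zero k' q5 (by simp [Gh.del]), add_zero] at this
    rw [this, tr, r2, i.fok.dl e ha]
  · simp only [he, Option.getD_some, Arr.get_set]
    split_ifs with q
    · rfl
    · exact xe e' q
  · obtain ⟨a1, a2⟩ := mem_erase.1 he'
    refine ((q1 e').trans ((r2 e').trans (i.fok.dl e' a2).symm)).symm.trans ?_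
    simp [tru, he, a1]
  · change pt (X.view o.2) f' ≤ _
    rw [add_mul] at b3
    omega
  · change pt (X.view o.2) f' ≤ _
    omega
  · have := cred_mono (Γ := g b) (η := η) (q3.trans (le_trans (Nat.le_add_right _ _) p1))
    have := pay_core (one_le_W (g b)) o3
    have := gE_ge g b
    have a : f.2.2.length = s.2.2.2.2.length := by simp [r5, r0]
    change t₁ + (t₂ + (t₃ + 0)) + (W (g b) * ψ' + f'.2.2.length +
      cred (g b) η (pt (X.view o.2) f')) ≤ _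
    omega

theorem cand_vt (h : CoreOK X c g I) {B b κ η : ℕ} {G : Gh} {s : St σ} {r φ : ℕ}
    (i : Inv X c g I B b κ η G s r φ) (h0 : s.2.2.2.2 = []) :
    Vt b B (candE (fun s => (X.view s).g) X.cand s) fun o t =>
      (o.1 = none ∧ G.Central (gE g b * κ) ∧ t ≤ φ + gE g b) ∨
      (o.1 = some none ∧ ∃ d φ', G.Move κ η d ∧
        Inv X c g I B b κ η (G.push d) o.2 (r + gE g b) φ' ∧ t + φ' ≤ φ + gE g b) := by
  obtain ⟨ψ, i1, i2⟩ := i.core
  have k := (h.ok _ _ _ _ _ _ i1).1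
  have g1 := gE_ge g b
  refine (h.cand B b κ G s.1 ψ i1).bind ?_
  rintro ⟨_ | p, s'⟩ t o
  · obtain ⟨⟨π, o1⟩, o2⟩ := o
    refine Vt.pure (Or.inl ⟨rfl, ⟨π, fun e he => (o1 e he).trans ?_⟩, ?_⟩)
    · refine mul_le_mul_of_nonneg_right (Nat.cast_le.2 (Nat.mul_le_mul_right _ ?_))
        (Nat.cast_nonneg _)
      omega
    · have := pay_core (l := 0) (ψ' := 0) (one_le_W (g b)) o2
      omega
  · obtain ⟨o1, o2, ψ', o3, o4⟩ := o
    have b1 := i.fok.pt_le k h0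
    have b2 := i.big
    have b3 := i.rem
    have e : s.2.1.2 = η := by rw [i.par]
    simp only [Option.elim, e] at o1 o3 o4 ⊢
    rw [add_mul, one_mul] at b2
    refine Vt.tbind (cn := true) (moveP_tri k i.fok o2 i.eta (show _ ≤ B by omega)) ?_
    rintro f t' ⟨d, q1, q2, q3, q4⟩
    refine Vt.pure (Or.inr ⟨rfl, d, _, q1, ⟨i.par, o1 ▸ q2, ?_, ?_, i.eta, i.big, ψ',
      h.push _ _ _ _ _ _ d o3, le_rfl⟩, ?_⟩)
    · have a : η * (g b + 1) ≤ gE g b * (η + 1) := by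
        rw [mul_comm]; exact Nat.mul_le_mul (by omega) (by omega)
      simp only [o1, add_mul r]
      omega
    · simp only [o1, add_mul, one_mul]
      omega
    · have := cred_add q3
      have := pay_core (l := 0) (one_le_W (g b)) o4
      simp only [o1]
      omega

theorem exists_pow (h : CoreOK X c g I) : ∃ c₀, ∀ b, g b ≤ 2 ^ (c₀ * (b + 1)) := by
  obtain ⟨c₀, h0⟩ := (h.sub 1).le_pow
  refine ⟨c₀, fun b => ?_⟩
  have a : 2 ≤ 2 ^ (b + 1) := by
    calc 2 = 2 ^ 1 := rfl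
      _ ≤ 2 ^ (b + 1) := Nat.pow_le_pow_right (by omega) (by omega)
  have := h0 _ a
  rw [Nat.size_pow, ← pow_mul, mul_comm (b + 1)] at this
  exact (h.mono (by omega)).trans this

/-- The engine from its core. -/
theorem eng_of_core (h : CORE) : ENG := by
  obtain ⟨σ, _, X, c, g, I, h⟩ := h
  obtain ⟨c₀, h0⟩ := exists_pow h
  refine ⟨St σ, inferInstance, eng X g, c + c₀ + 3, gE g, Inv X c g I,
    impl_initE h.iinit, impl_insE (cs := fun s => (X.view s).cs) (re := fun s => (X.view s).re)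
      (dep := fun s => (X.view s).dep) h.pcs h.pre h.pdep h.iadd,
    impl_stepE (cs := fun s => (X.view s).cs) (re := fun s => (X.view s).re)
      (len := fun s => (X.view s).len) (dep := fun s => (X.view s).dep)
      (g := fun s => (X.view s).g) (bad := fun s => (X.view s).bad)
      h.pcs h.pre h.plen h.pdep h.pg h.pbad h.ikill h.icand, fun a => ?_,
    fun a b hab => ?_, fun B b κ η h1 h2 h3 => ?_,
    fun B b κ η G s r φ e a i => ins_vt h i, fun B b κ η G s r φ i => ?_⟩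
  · exact (Sub.const 20).mul (((h.sub a).add (Sub.const 1)).pow 3)
  · exact Nat.mul_le_mul_left _ (Nat.pow_le_pow_left (Nat.succ_le_succ (h.mono hab)) _)
  · have a1 : 2 ^ (c * (b + 1)) ≤ 2 ^ ((c + c₀ + 3) * (b + 1)) :=
      Nat.pow_le_pow_right (by omega) (Nat.mul_le_mul_right _ (by omega))
    have a2 : 1 ≤ η := le_trans Nat.one_le_two_pow h2
    have a3 := Nat.le_mul_of_pos_left (2 ^ ((c + c₀ + 3) * (b + 1))) a2
    refine (h.init B b κ h1 (by omega)).bind ?_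
    rintro s t ⟨ψ, o1, o2⟩
    have p0 : pt (X.view s) (Arr.const 0, Arr.const 0, []) = 0 := by simp [pt, pot, mass]
    refine Vt.pure ⟨_, ⟨rfl, ⟨⟨by simp, by simp⟩, fun _ _ => rfl, fun _ => rfl,
      fun e he => by simp [Gh.empty] at he⟩, by simp [p0], by simp [p0], by omega, ?_, ψ, o1,
      le_rfl⟩, ?_⟩
    · refine le_trans ?_ h3
      have b1 : 1 ≤ 2 ^ (c * (b + 1)) := Nat.one_le_two_pow
      have b2 : 1 ≤ 2 ^ (c₀ * (b + 1)) := Nat.one_le_two_pow
      have b3 : 2 ^ 3 ≤ 2 ^ (3 * (b + 1)) := Nat.pow_le_pow_right (by omega) (by omega)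
      have b4 := h0 b
      rw [add_mul (c + c₀), add_mul c, pow_add, pow_add]
      calc 2 * ((2 ^ (c * (b + 1)) + 1) * (η * (g b + 1)))
          ≤ 2 * ((2 * 2 ^ (c * (b + 1))) * (η * (2 * 2 ^ (c₀ * (b + 1))))) :=
            Nat.mul_le_mul_left _ (Nat.mul_le_mul (by omega) (Nat.mul_le_mul_left _ (by omega)))
        _ = η * (2 ^ (c * (b + 1)) * 2 ^ (c₀ * (b + 1)) * 2 ^ 3) := by ring
        _ ≤ _ := Nat.mul_le_mul_left _ (Nat.mul_le_mul_left _ b3)
    · have := pay_core (l := 0) (ψ := 0) (one_le_W (g b)) (show t + 0 + ψ ≤ 0 + g b by omega)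
      have := gE_ge g b
      simp only [p0, cred, List.length_nil, mul_zero, Nat.zero_div]
      omega
  · obtain ⟨ψ, i1, i2⟩ := i.core
    have k := (h.ok _ _ _ _ _ _ i1).1
    have b1 := i.bd
    have b2 := i.big
    have e1 : s.2.1.1 = b := by rw [i.par]
    have e2 : s.2.1.2 = η := by rw [i.par]
    refine Vt.tbind (cn := true) (drain_tri (items k) (down k) i.fok.cl (e2 ▸ i.fok.qu)
      (i.fok.tr_le k) (show _ + pt (X.view s.1) s.2.2 ≤ B by omega)
      (by simp only [e1]; exact Nat.lt_succ_self _)) ?_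
    rintro ⟨o, f⟩ t ⟨q1, q2, q3, q4, q5, q6, q7⟩
    simp only [e2] at q4 q6 q7
    have a := cred_pay q6
    have j : Inv X c g I B b κ η G (s.1, s.2.1, f) r (φ - t) :=
      ⟨i.par, ⟨q4, q5, fun e => (congrFun q2 e).trans (i.fok.xh e),
        fun e he => (i.fok.dl e he).trans (q1 e).symm⟩, q3.trans i.rem, q3.trans b1, i.eta, b2,
        ψ, i1, by simp only [pt] at i2 ⊢; omega⟩
    have ht : t ≤ φ := by simp only [pt] at i2; omega
    cases o with
    | none =>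
      have cl : G.Clean (gE g b * η) := fun e he => (j.fok.clean k q7 e he).trans
        (Nat.mul_le_mul_right _ (by have := gE_ge g b; omega))
      refine (cand_vt h j q7).mono ?_
      rintro o t' (⟨o1, o2, o3⟩ | ⟨o1, d, φ', o2, o3, o4⟩)
      · rw [o1]; exact ⟨cl, o2, by omega⟩
      · rw [o1]; exact ⟨cl, d, φ', o2, o3, by omega⟩
    | some z =>
      refine (kill_vt h j ⟨q7.1, q7.2.1⟩ q7.2.2.1 q7.2.2.2).mono ?_
      rintro o t' ⟨e, d, o1, o2, o3, r', φ', o4, o5, o6⟩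
      rw [o1]
      exact ⟨o2, o3, r', φ', o4, o5, by omega⟩

end Vale.Agent.P305Q
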