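import Vale.Agent.P305Q.Prog
import Vale.Agent.P305M.Core

/-!
# The pending flows on the store of the core
-/

namespace Vale.Agent.P305Q

open Vale.Agent.P305E Vale.Agent.P305M Finset

variable {S S' : GS} {G G' : Gh} {Γ M η κ : ℕ} {L : List ℕ} {s : Fs} {c : Cx}

theorem items (h : S.OK G Γ M) : Items S.n S.cs S.re S.len S.dep Γ Γ :=
  ⟨h.dag, h.rcs, h.len1, h.lens, h.dep, fun z hz => (h.depl z hz).le, h.csl⟩

theorem down (h : S.OK G Γ M) : Down S.n S.cs S.bad :=
  fun z hz hb x hx => (h.val z ⟨hz, hb⟩ x hx).2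

/-- The true flow. -/
abbrev tr (S : GS) (s : Fs) (e : ℕ) : ℤ := tru S.cs S.re S.n s e

/-- The potential. -/
abbrev pt (S : GS) (s : Fs) : ℕ := pot S.n S.len S.dep s

/-- The flows of `G` are the pending flows. -/
structure FOK (S : GS) (G : Gh) (η : ℕ) (s : Fs) : Prop where
  qu : Qu S.n S.len S.bad η s
  cl : Clean S.n S.bad s
  xh : ∀ e, s.2.1.get e = 0
  dl : ∀ e ∈ G.al, G.dl e = tr S s e

theorem sum_len (h : S.OK G Γ M) {z : ℕ} (hz : S.ok z) (E : Finset ℕ) (w : ℕ → ℕ)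
    (hw : ∀ e ∈ G.al, w e ≤ (G.arc e).2.2.1) :
    ∑ e ∈ E, (chi S.cs S.re z e).natAbs * w e ≤ S.len z :=
  sum_chi_len (ok := S.ok) h.dag E w S.len (fun y _ hy => h.val y hy) (fun y hy _ => h.lens y hy)
    (fun y hy hk e he => ⟨h.rcs y hy e he, by
      have := h.real y hk e he
      have a := hw e this.1
      rwa [this.2] at a⟩) hz.1 hz

/-- Valid items pass only through arcs that are present. -/
theorem chi_zero (h : S.OK G Γ M) {z e : ℕ} (hz : S.ok z) (he : e ∉ G.al) :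
    chi S.cs S.re z e = 0 := by
  have := sum_len h hz {e} (fun x => if x = e then S.len z + 1 else 0) fun x hx => by
    rw [if_neg fun q : x = e => he (q ▸ hx)]; omega
  simp only [sum_singleton, if_true] at this
  by_contra q
  have a := Nat.mul_le_mul_right (S.len z + 1) (Int.natAbs_pos.2 q)
  omega

theorem pnd_zero (h : S.OK G Γ M) (hc : Clean S.n S.bad s) {e : ℕ} (he : e ∉ G.al) :
    pnd S.cs S.re S.n s.1.get e = 0 := by
  refine sum_eq_zero fun z hz => ?_
  cases hb : S.bad z with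
  | true => rw [hc z (Or.inr hb), zero_mul]
  | false => rw [chi_zero h ⟨mem_range.1 hz, hb⟩ he, mul_zero]

theorem FOK.tr_le (h : S.OK G Γ M) (f : FOK S G' η s) (e : ℕ) : (tr S s e).natAbs ≤ pt S s := by
  rw [tr, tru, f.xh, zero_add]
  exact (items h).pnd_le s e

theorem qu_small (hq : Qu S.n S.len S.bad η s) (h0 : s.2.2 = []) {y : ℕ} (hy : S.ok y) :
    (s.1.get y).natAbs * S.len y ≤ η := by
  by_contra q
  have := hq.mem y hy.1 hy.2 (by omega)
  simp [h0] at this

/-- With an empty queue all flows are small. -/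
theorem FOK.clean (h : S.OK G Γ M) (f : FOK S G η s) (h0 : s.2.2 = []) : G.Clean (Γ * η) := by
  intro e he
  rw [f.dl e he, tr, tru, f.xh, zero_add]
  refine pnd_small (ok := S.ok) (len := S.len) (fun y hy q => f.cl y (Or.inr ?_))
    (fun y _ hy => qu_small f.qu h0 hy) (fun y _ hy => ?_) (h.anc e)
  · by_contra a
    exact q ⟨hy, by simpa using a⟩
  · simpa using sum_len h hy {e} (fun x => (G.arc x).2.2.1) fun _ _ => le_rfl

theorem FOK.pt_le (h : S.OK G Γ M) (f : FOK S G η s) (h0 : s.2.2 = []) :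
    pt S s ≤ M * (η * (Γ + 1)) := by
  unfold pt pot mass
  refine (sum_le_card_nsmul _ _ (η * (Γ + 1)) fun y hy => ?_).trans ?_
  · have hy := mem_range.1 hy
    cases hb : S.bad y with
    | true => rw [f.cl y (Or.inr hb)]; simp
    | false =>
      rw [← mul_assoc]
      exact Nat.mul_le_mul (qu_small f.qu h0 ⟨hy, hb⟩) (by have := h.depl y hy; omega)
  · rw [card_range, smul_eq_mul]
    exact Nat.mul_le_mul_right _ h.nle

/-! ### Extension of the store -/

theorem ext_tr (x : S.Ext S' L) (h0 : ∀ z, S.n ≤ z → s.1.get z = 0) (e : ℕ) :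
    tr S' s e = tr S s e := by
  rw [tr, tr, tru, tru, pnd_congr x.n (fun y hy => (x.cs y hy).symm) (fun y hy => (x.re y hy).symm)
    (fun _ _ => rfl) fun y hy _ => h0 y hy]

theorem ext_pt (x : S.Ext S' L) (h0 : ∀ z, S.n ≤ z → s.1.get z = 0) : pt S' s = pt S s :=
  mass_congr x.n (fun y hy => by rw [x.len y hy, x.dep y hy]) (fun _ _ => rfl)
    fun y hy _ => h0 y hy

theorem ext_qu (x : S.Ext S' L) (h0 : ∀ z, S.n ≤ z → s.1.get z = 0)
    (hq : Qu S.n S.len S.bad η s) : Qu S'.n S'.len S'.bad η s := by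
  refine ⟨fun z hz => (hq.lt z hz).trans_le x.n, fun z _ hb ht => ?_⟩
  by_cases hz : z < S.n
  · refine hq.mem z hz ?_ (by rwa [x.len z hz] at ht)
    by_contra q
    simp [x.bad z hz (by simpa using q)] at hb
  · simp [h0 z (by omega)] at ht

/-- The flush of the items that have lost their validity. -/
def flushL (cs : ℕ → List (ℕ × Bool)) (re : ℕ → Option ℕ) (dep : ℕ → ℕ) (s : Fs) (L : List ℕ) :
    P305E.M Fs := do
  let m ← foldP (fun m z => max m (dep z)) 0 L
  let E ← num (m + 1)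
  flushAll cs re dep E s L

theorem foldl_max (f : ℕ → ℕ) (L : List ℕ) (a D : ℕ) (ha : a ≤ D) (h : ∀ z ∈ L, f z ≤ D) :
    a ≤ L.foldl (fun m z => max m (f z)) a ∧ (∀ z ∈ L, f z ≤ L.foldl (fun m z => max m (f z)) a) ∧
      L.foldl (fun m z => max m (f z)) a ≤ D := by
  induction L generalizing a with
  | nil => simpa using ha
  | cons y L ih =>
    obtain ⟨a1, a2, a3⟩ := ih (max a (f y)) (max_le ha (h y (by simp)))
      fun z hz => h z (by simp [hz])
    refine ⟨(le_max_left _ _).trans a1, fun z hz => ?_, a3⟩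
    rcases List.mem_cons.1 hz with rfl | hz
    · exact (le_max_right _ _).trans a1
    · exact a2 z hz

/-- The price of one item of the list. -/
def W (Γ : ℕ) : ℕ := (Γ + 1) * (3 * Γ + 1) + 1

theorem flushL_tri (h : S.OK G Γ M) (h' : S'.OK G' Γ M) (x : S.Ext S' L) {X : ℕ}
    (hq : Qu S.n S.len S.bad η s) (hc : Clean S.n S.bad s) (hX : ∀ e, (tr S s e).natAbs ≤ X)
    (hB : X + pt S s ≤ c.B) (hΓ : Γ + 1 ≤ c.B) :
    Tri c (flushL S'.cs S'.re S'.dep s L) fun s' t => (∀ e, tr S' s' e = tr S s e) ∧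
      (∀ e, (∀ z ∈ L, S'.re z ≠ some e) → s'.2.1.get e = s.2.1.get e) ∧ pt S' s' ≤ pt S s ∧
      Qu S'.n S'.len S'.bad η s' ∧ Clean S'.n S'.bad s' ∧
      t + s'.2.2.length ≤ s.2.2.length + W Γ * L.length + (Γ + 1) := by
  have h0 : ∀ z, S.n ≤ z → s.1.get z = 0 := fun z hz => hc z (Or.inl hz)
  obtain ⟨-, a2, a3⟩ := foldl_max S'.dep L 0 Γ (Nat.zero_le _)
    fun z hz => (h'.depl z (x.mem z hz).1).le
  simp only [flushL, Tri_bind, Tri_foldP, Tri_num]
  refine ⟨by omega, (flushAll_tri (items h') S.ok (X := X)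
    (fun z hz => ⟨(x.mem z hz).1, Nat.lt_succ_of_le (a2 z hz)⟩) (fun z hz => ⟨hz.1.trans_le x.n,
      by rw [x.cs z hz.1]; exact h.val z hz, fun hb => (x.new z hz).resolve_left fun q => by
        simp [q.2] at hb⟩) (fun z hz => hc z ?_) (ext_qu x h0 hq)
      (fun e => by rw [← tr, ext_tr x h0]; exact hX e) (by rw [← pt, ext_pt x h0]; exact hB)).mono ?_⟩
  · by_contra q
    push Not at q
    exact hz ⟨q.1, by simpa using q.2⟩
  · rintro s' t ⟨q1, q2, q3, q4, q5, q6⟩
    refine ⟨fun e => (q1 e).trans (ext_tr x h0 e), q2, q3.trans (ext_pt x h0).le, q4, q5, ?_⟩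
    have := Nat.mul_le_mul_right (L.length * (3 * Γ + 1) + 1) (Nat.succ_le_succ a3)
    unfold W
    nlinarith

/-! ### Moves -/

/-- The signed sum of the gradients. -/
def gsumP (g : ℕ → ℤ) (l : List (ℕ × Bool)) : P305E.M ℤ :=
  foldM (fun a x => inum (a + if x.2 = true then g x.1 else -g x.1)) 0 l

theorem gsumP_tri {g : ℕ → ℤ} {l : List (ℕ × Bool)}
    (hB : nsum (fun z => (g z).natAbs) l ≤ c.B) :
    Tri c (gsumP g l) fun a t => a = ssum g l ∧ t = l.length := by
  refine Tri.foldM (fun pre a t => a = ssum g pre ∧ t = pre.length) ⟨rfl, rfl⟩ ?_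
  rintro pre x rest a t e ⟨rfl, rfl⟩
  have e1 : (ssum g pre + if x.2 = true then g x.1 else -g x.1) = ssum g (pre ++ [x]) := by
    cases h : x.2 <;> simp [h]
  rw [Tri_inum, e1]
  refine ⟨(natAbs_ssum _ _).trans (le_trans ?_ hB), rfl, by simp⟩
  simp [e]

/-- The flow that is pushed round a candidate. -/
def amt (η w : ℕ) (gl : ℤ) : ℤ := if 0 < gl then -((η / w : ℕ) : ℤ) else ((η / w : ℕ) : ℤ)

theorem natAbs_amt (η w : ℕ) (gl : ℤ) : (amt η w gl).natAbs = η / w := by
  unfold amt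
  split_ifs
  · rw [Int.natAbs_neg, Int.natAbs_natCast]
  · rw [Int.natAbs_natCast]

theorem amt_mul (η w : ℕ) (gl : ℤ) : amt η w gl * gl = -((η / w * gl.natAbs : ℕ) : ℤ) := by
  unfold amt
  rw [Nat.cast_mul, Int.natCast_natAbs]
  split_ifs with h
  · rw [abs_of_pos h]; ring
  · rw [abs_of_nonpos (not_lt.1 h)]; ring

theorem move (h : S.OK G Γ M) {l : List (ℕ × Bool)} {w : ℕ} (k : S.Cand κ Γ M l w) (hM : M ≤ η) :
    G.Move κ η fun e => amt η w (ssum S.g l) * ssum (fun y => chi S.cs S.re y e) l := by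
  have key : ∀ u v : ℕ → ℤ, (∀ y, S.ok y → S.re y = none → v y = ssum v (S.cs y)) →
      (∀ y, S.ok y → ∀ e, S.re y = some e → v y = u e) → ∀ a : ℤ,
      ∑ e ∈ G.al, a * ssum (fun y => chi S.cs S.re y e) l * u e = a * ssum v l := by
    intro u v h1 h2 a
    simp only [mul_assoc, ← mul_sum, ssum_mul, ssum_sum]
    rw [ssum_congr fun x hx => sum_chi (ok := S.ok) h.dag G.al u v (fun y _ hy => h.val y hy)
      (fun y _ hy => h1 y hy) (fun y hy hk e he => ⟨h.rcs y hy e he, (h.real y hk e he).1,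
        h2 y hk e he⟩) (k.ok x hx).1 (k.ok x hx)]
  have a1 : η / w * w ≤ η := Nat.div_mul_le_self _ _
  refine ⟨fun φ => ?_, ?_, ?_⟩
  · rw [key _ (S.dif φ) (fun y hy hr => h.walk y hy hr φ) fun y hy e he => by
      rw [(h.real y hy e he).2]; rfl, k.closed, mul_zero]
  · simp only [Int.natAbs_mul, natAbs_amt, mul_assoc, ← mul_sum]
    refine le_trans (Nat.mul_le_mul_left _ (le_trans ?_ k.len)) a1
    refine (sum_le_sum fun e _ => Nat.mul_le_mul_right _ (natAbs_ssum _ _)).trans ?_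
    simp only [nsum_mul, nsum_sum]
    exact nsum_le fun x hx => sum_len h (k.ok x hx) _ _ fun _ _ => le_rfl
  · rw [key _ S.g h.gs fun y hy e he => by rw [(h.real y hy e he).2], amt_mul]
    have a2 : η < w * (η / w + 1) := Nat.lt_mul_div_succ η k.pos
    have a3 : 1 ≤ η / w := Nat.div_pos (k.le.trans hM) k.pos
    have a4 : η ≤ 2 * (η / w * w) := by nlinarith
    have a5 := Nat.mul_le_mul_left (η / w) k.big
    have a6 := Nat.mul_le_mul_left κ a4
    have a7 : κ * η ≤ 2 * (η / w * (ssum S.g l).natAbs) := by nlinarith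
    omega

/-- The push round a candidate. -/
def moveP (g : ℕ → ℤ) (η : ℕ) (s : Fs) (l : List (ℕ × Bool)) (w : ℕ) : P305E.M Fs := do
  let gl ← gsumP g l
  stepP s (amt η w gl) l

theorem moveP_tri (h : S.OK G Γ M) (f : FOK S G η s) {l : List (ℕ × Bool)} {w : ℕ}
    (k : S.Cand κ Γ M l w) (hM : M ≤ η) (hB : pt S s + η * (Γ + 1) ≤ c.B) :
    Tri c (moveP S.g η s l w) fun s' t => ∃ d, G.Move κ η d ∧ FOK S (G.push d) η s' ∧
      pt S s' ≤ pt S s + η * (Γ + 1) ∧ t + s'.2.2.length ≤ s.2.2.length + 4 * Γ := by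
  have a0 : η ≤ η * (Γ + 1) := Nat.le_mul_of_pos_right _ (Nat.succ_pos _)
  refine (gsumP_tri (k.gle.trans (by omega))).bind ?_
  rintro _ _ ⟨rfl, rfl⟩
  have a1 : (amt η w (ssum S.g l)).natAbs * (nsum S.len l * (Γ + 1)) ≤ η * (Γ + 1) := by
    rw [natAbs_amt, ← mul_assoc]
    exact Nat.mul_le_mul_right _ ((Nat.mul_le_mul_left _ k.len).trans (Nat.div_mul_le_self _ _))
  refine (stepP_tri (items h) k.ok f.qu f.cl (le_trans (Nat.add_le_add_left a1 _) hB)).mono ?_
  rintro s' t ⟨q1, q2, q3, q4, q5, q6, q7⟩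
  have := k.short
  refine ⟨_, move h k hM, ⟨q4, q5, fun e => by rw [q2, f.xh], fun e he => ?_⟩,
    q3.trans (Nat.add_le_add_left a1 _), by omega⟩
  rw [tr, q1, ← tr, ← f.dl e he]
  rfl

/-! ### Implementation -/

section impl
variable {α : Type} [Rep α]

@[fun_prop] theorem impl_flushL {cs : α → ℕ → List (ℕ × Bool)} {re : α → ℕ → Option ℕ}
    {dep : α → ℕ → ℕ} {s : α → Fs} {L : α → List ℕ}
    (hc : Pure fun p : α × ℕ => cs p.1 p.2) (hr : Pure fun p : α × ℕ => re p.1 p.2)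
    (hd : Pure fun p : α × ℕ => dep p.1 p.2) (hs : Pure s) (hl : Pure L) :
    Impl fun x => flushL (cs x) (re x) (dep x) (s x) (L x) := by
  unfold flushL; fun_prop

@[fun_prop] theorem impl_moveP {g : α → ℕ → ℤ} {η w : α → ℕ} {s : α → Fs}
    {l : α → List (ℕ × Bool)} (hg : Pure fun p : α × ℕ => g p.1 p.2) (hη : Pure η) (hs : Pure s)
    (hl : Pure l) (hw : Pure w) : Impl fun x => moveP (g x) (η x) (s x) (l x) (w x) := by
  unfold moveP gsumP amt; fun_prop

end impl

end Vale.Agent.P305Q
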