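import Vale.Agent.P305Q.Dag
import Vale.Agent.P305E.Arr

/-!
# Programs for the pending flows

The state is `(F, xh, q)`: the pending flows of the items, the known flows of the arcs and the
queue of the items that have to be inspected. The item data are given by accessor functions.
-/

namespace Vale.Agent.P305Q

open Vale.Agent.P305E Finset

/-- Pending flows, known flows, queue. -/
abbrev Fs := Arr ℤ × Arr ℤ × List ℕ

/-- Static facts on the items below `n`. -/
structure Items (n : ℕ) (cs : ℕ → List (ℕ × Bool)) (re : ℕ → Option ℕ) (len dep : ℕ → ℕ)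
    (H D : ℕ) : Prop where
  dag : Dag cs n
  real : ∀ z < n, ∀ e, re z = some e → cs z = []
  pos : ∀ z < n, 1 ≤ len z
  sub : ∀ z < n, nsum len (cs z) ≤ len z
  lt : ∀ z < n, ∀ c ∈ cs z, dep c.1 < dep z
  top : ∀ z < n, dep z ≤ D
  hops : ∀ z < n, (cs z).length ≤ H

/-- The true flow on the arc `e`. -/
def tru (cs : ℕ → List (ℕ × Bool)) (re : ℕ → Option ℕ) (n : ℕ) (s : Fs) (e : ℕ) : ℤ :=
  s.2.1.get e + pnd cs re n s.1.get e

/-- The flush potential. -/
def pot (n : ℕ) (len dep : ℕ → ℕ) (s : Fs) : ℕ := mass n (fun y => len y * (dep y + 1)) s.1.get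

/-- The queue contains all valid items over the threshold. -/
structure Qu (n : ℕ) (len : ℕ → ℕ) (bad : ℕ → Bool) (th : ℕ) (s : Fs) : Prop where
  lt : ∀ z ∈ s.2.2, z < n
  mem : ∀ z < n, bad z = false → th < (s.1.get z).natAbs * len z → z ∈ s.2.2

/-- The constituents of valid items are valid. -/
def Down (n : ℕ) (cs : ℕ → List (ℕ × Bool)) (bad : ℕ → Bool) : Prop :=
  ∀ z < n, bad z = false → ∀ c ∈ cs z, bad c.1 = false

/-- Bad items and items that do not exist carry no pending flow. -/
def Clean (n : ℕ) (bad : ℕ → Bool) (s : Fs) : Prop :=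
  ∀ z, n ≤ z ∨ bad z = true → s.1.get z = 0

/-- Adding `a` along a signed list. -/
def pushP (F : Arr ℤ) (a : ℤ) (l : List (ℕ × Bool)) : M (Arr ℤ) :=
  foldM (fun F c => do
    let v ← inum (F.get c.1 + if c.2 = true then a else -a)
    pure (F.set c.1 v)) F l

/-- Adding `a` along a signed list; its items enter the queue. -/
def stepP (s : Fs) (a : ℤ) (l : List (ℕ × Bool)) : M Fs := do
  let F ← pushP s.1 a l
  let q ← foldP (fun q c => c.1 :: q) s.2.2 l
  pure (F, s.2.1, q)

/-- The flush of one item. -/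
def flushP (cs : ℕ → List (ℕ × Bool)) (re : ℕ → Option ℕ) (s : Fs) (z : ℕ) : M Fs := do
  let x ← (re z).elim (pure s.2.1) fun e => do
    let v ← inum (s.2.1.get e + s.1.get z)
    pure (s.2.1.set e v)
  stepP (s.1.set z 0, x, s.2.2) (s.1.get z) (cs z)

/-- The flush of all items of a list, from the top; `E` is larger than all depths. -/
def flushAll (cs : ℕ → List (ℕ × Bool)) (re : ℕ → Option ℕ) (dep : ℕ → ℕ) (E : ℕ) (s : Fs)
    (l : List ℕ) : M Fs :=
  iterM (fun s i => foldM (fun s z => if dep z + i + 1 = E then flushP cs re s z else pure s) s l)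
    s E

/-- One round of `drain`. -/
def drainF (cs : ℕ → List (ℕ × Bool)) (re : ℕ → Option ℕ) (len : ℕ → ℕ) (bad : ℕ → Bool)
    (th : ℕ) (s : Fs) : M (Fs ⊕ Option ℕ × Fs) :=
  caseL s.2.2 (pure (Sum.inr (none, s))) fun z q =>
    if bad z = false ∧ th < (s.1.get z).natAbs * len z then
      if (re z).isSome = true then pure (Sum.inr (some z, s))
      else do
        let s' ← flushP cs re (s.1, s.2.1, q) z
        pure (Sum.inl s')
    else pure (Sum.inl (s.1, s.2.1, q))

/-- Flushes valid virtual items over the threshold, until the queue is empty or starts with a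
valid real item over the threshold. The fuel is a ghost. -/
def drain (fuel : ℕ) (cs : ℕ → List (ℕ × Bool)) (re : ℕ → Option ℕ) (len : ℕ → ℕ)
    (bad : ℕ → Bool) (th : ℕ) (s : Fs) : M (Option ℕ × Fs) :=
  loopM (drainF cs re len bad th) fuel s

section impl
variable {α : Type} [Rep α]

@[fun_prop] theorem impl_pushP {F : α → Arr ℤ} {a : α → ℤ} {l : α → List (ℕ × Bool)}
    (hF : Pure F) (ha : Pure a) (hl : Pure l) : Impl fun x => pushP (F x) (a x) (l x) := by
  unfold pushP; fun_prop

@[fun_prop] theorem impl_stepP {s : α → Fs} {a : α → ℤ} {l : α → List (ℕ × Bool)}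
    (hs : Pure s) (ha : Pure a) (hl : Pure l) : Impl fun x => stepP (s x) (a x) (l x) := by
  unfold stepP; fun_prop

@[fun_prop] theorem impl_flushP {cs : α → ℕ → List (ℕ × Bool)} {re : α → ℕ → Option ℕ}
    {s : α → Fs} {z : α → ℕ} (hc : Pure fun p : α × ℕ => cs p.1 p.2)
    (hr : Pure fun p : α × ℕ => re p.1 p.2) (hs : Pure s) (hz : Pure z) :
    Impl fun x => flushP (cs x) (re x) (s x) (z x) := by
  unfold flushP; fun_prop

@[fun_prop] theorem impl_flushAll {cs : α → ℕ → List (ℕ × Bool)} {re : α → ℕ → Option ℕ}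
    {dep : α → ℕ → ℕ} {D : α → ℕ} {s : α → Fs} {l : α → List ℕ}
    (hc : Pure fun p : α × ℕ => cs p.1 p.2) (hr : Pure fun p : α × ℕ => re p.1 p.2)
    (hd : Pure fun p : α × ℕ => dep p.1 p.2) (hD : Pure D) (hs : Pure s) (hl : Pure l) :
    Impl fun x => flushAll (cs x) (re x) (dep x) (D x) (s x) (l x) := by
  unfold flushAll; fun_prop

@[fun_prop] theorem impl_drain {fuel : α → ℕ} {cs : α → ℕ → List (ℕ × Bool)}
    {re : α → ℕ → Option ℕ} {len : α → ℕ → ℕ} {bad : α → ℕ → Bool} {th : α → ℕ} {s : α → Fs}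
    (hc : Pure fun p : α × ℕ => cs p.1 p.2) (hr : Pure fun p : α × ℕ => re p.1 p.2)
    (hl : Pure fun p : α × ℕ => len p.1 p.2) (hb : Pure fun p : α × ℕ => bad p.1 p.2)
    (ht : Pure th) (hs : Pure s) :
    Impl fun x => drain (fuel x) (cs x) (re x) (len x) (bad x) (th x) (s x) := by
  unfold drain drainF; fun_prop

end impl

variable {c : Cx} {n H D : ℕ} {cs : ℕ → List (ℕ × Bool)} {re : ℕ → Option ℕ} {len dep : ℕ → ℕ}
  {bad : ℕ → Bool} {th : ℕ}

theorem pushP_tri {w : ℕ → ℕ} {F : Arr ℤ} {a : ℤ} {l : List (ℕ × Bool)} (hw : ∀ z < n, 1 ≤ w z)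
    (hl : ∀ x ∈ l, x.1 < n) (hB : mass n w F.get + a.natAbs * nsum w l ≤ c.B) :
    Tri c (pushP F a l) fun F' t => F'.get = push F.get a l ∧ t = l.length := by
  refine Tri.foldM (fun pre (F' : Arr ℤ) t => F'.get = push F.get a pre ∧ t = pre.length)
    ⟨rfl, rfl⟩ ?_
  intro pre x rest F' t e hI
  have e1 : (if x.2 = true then a else -a) = sg x.2 * a := by cases x.2 <;> simp
  have e2 : (F'.set x.1 (F'.get x.1 + sg x.2 * a)).get = push F.get a (pre ++ [x]) := by
    rw [Arr.set_get_fun, hI.1]
    simp [push, bump]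
  simp only [Tri_bind, Tri_inum, Tri_pure, e1]
  refine ⟨?_, e2, by simp [hI.2]⟩
  have hx := hl x (by simp [e])
  have a1 := le_mass hx w (push F.get a (pre ++ [x]))
  have a2 := mass_push (n := n) (l := pre ++ [x]) w F.get a
  have a3 : nsum w (pre ++ [x]) ≤ nsum w l := by simp [e]
  have a4 := Nat.mul_le_mul_left a.natAbs a3
  have a5 := Nat.mul_le_mul_left (push F.get a (pre ++ [x]) x.1).natAbs (hw _ hx)
  rw [← e2, Arr.get_set_self] at a5 a1
  rw [← e2] at a2
  omega

theorem foldl_fst (q : List ℕ) (l : List (ℕ × Bool)) :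
    l.foldl (fun q c => c.1 :: q) q = (l.map Prod.fst).reverse ++ q := by
  induction l generalizing q with
  | nil => simp
  | cons x l ih => simp [ih]

theorem stepP_raw {w : ℕ → ℕ} {s : Fs} {a : ℤ} {l : List (ℕ × Bool)} (hw : ∀ z < n, 1 ≤ w z)
    (hl : ∀ x ∈ l, x.1 < n) (hB : mass n w s.1.get + a.natAbs * nsum w l ≤ c.B) :
    Tri c (stepP s a l) fun s' t => s'.1.get = push s.1.get a l ∧ s'.2.1 = s.2.1 ∧
      s'.2.2 = (l.map Prod.fst).reverse ++ s.2.2 ∧ t = 2 * l.length := by
  refine (pushP_tri hw hl hB).bind fun F t h => ?_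
  simp only [Tri_bind, Tri_foldP, Tri_pure, foldl_fst]
  exact ⟨h.1, trivial, trivial, by omega⟩

theorem Items.one_le (h : Items n cs re len dep H D) (z : ℕ) (hz : z < n) :
    1 ≤ len z * (dep z + 1) := Nat.mul_pos (h.pos z hz) (Nat.succ_pos _)

theorem Items.nsum_le (h : Items n cs re len dep H D) {l : List (ℕ × Bool)}
    (hl : ∀ x ∈ l, x.1 < n) : nsum (fun y => len y * (dep y + 1)) l ≤ nsum len l * (D + 1) := by
  rw [nsum_mul]
  exact P305Q.nsum_le fun x hx => Nat.mul_le_mul_left _ (by have := h.top _ (hl x hx); omega)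

/-- An item passes an arc at most `len` times. -/
theorem Items.chi_le (h : Items n cs re len dep H D) {z : ℕ} (hz : z < n) (e : ℕ) :
    (chi cs re z e).natAbs ≤ len z := by
  have := sum_chi_len (ok := fun _ => True) (re := re) h.dag {e} (fun _ => 1) len
    (fun _ _ _ _ _ => trivial) (fun y hy _ => h.sub y hy)
    (fun y hy _ e he => ⟨h.real y hy e he, h.pos y hy⟩) hz trivial
  simpa using this

/-- The pending flow on an arc is bounded by the potential. -/
theorem Items.pnd_le (h : Items n cs re len dep H D) (s : Fs) (e : ℕ) :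
    (pnd cs re n s.1.get e).natAbs ≤ pot n len dep s := by
  refine (Int.natAbs_sum_le _ _).trans (sum_le_sum fun y hy => ?_)
  rw [Int.natAbs_mul]
  exact Nat.mul_le_mul_left _ ((h.chi_le (mem_range.1 hy) e).trans (Nat.le_mul_of_pos_right _
    (Nat.succ_pos _)))

theorem Qu.push {s s' : Fs} {a : ℤ} {l : List (ℕ × Bool)} {F : ℕ → ℤ}
    (h0 : ∀ z ∈ s.2.2, z < n)
    (h : ∀ z < n, bad z = false → th < (F z).natAbs * len z → z ∈ s.2.2)
    (hl : ∀ x ∈ l, x.1 < n) (h1 : s'.1.get = push F a l)
    (h2 : s'.2.2 = (l.map Prod.fst).reverse ++ s.2.2) : Qu n len bad th s' := by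
  refine ⟨fun z hz => ?_, fun z hz hb ht => ?_⟩
  · simp only [h2, List.mem_append, List.mem_reverse, List.mem_map] at hz
    rcases hz with ⟨x, hx, rfl⟩ | hz
    · exact hl x hx
    · exact h0 z hz
  · simp only [h2, List.mem_append, List.mem_reverse, List.mem_map]
    by_cases q : ∃ x ∈ l, x.1 = z
    · exact Or.inl q
    · rw [h1, push_of_notMem fun x hx e => q ⟨x, hx, e⟩] at ht
      exact Or.inr (h z hz hb ht)

/-- A step along a signed list of valid items. -/
theorem stepP_tri (h : Items n cs re len dep H D) {s : Fs} {a : ℤ} {l : List (ℕ × Bool)}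
    (hl : ∀ x ∈ l, x.1 < n ∧ bad x.1 = false) (hq : Qu n len bad th s) (hc : Clean n bad s)
    (hB : pot n len dep s + a.natAbs * (nsum len l * (D + 1)) ≤ c.B) :
    Tri c (stepP s a l) fun s' t =>
      (∀ e, tru cs re n s' e = tru cs re n s e + a * ssum (fun y => chi cs re y e) l) ∧
      s'.2.1 = s.2.1 ∧ pot n len dep s' ≤ pot n len dep s + a.natAbs * (nsum len l * (D + 1)) ∧
      Qu n len bad th s' ∧ Clean n bad s' ∧ s'.2.2.length = s.2.2.length + l.length ∧
      t = 2 * l.length := by
  have a1 := Nat.mul_le_mul_left a.natAbs (h.nsum_le fun x hx => (hl x hx).1)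
  refine (stepP_raw h.one_le (fun x hx => (hl x hx).1) (by unfold pot at hB; omega)).mono ?_
  rintro s' t ⟨h1, h2, h3, h4⟩
  refine ⟨fun e => ?_, h2, ?_, Qu.push hq.lt hq.mem (fun x hx => (hl x hx).1) h1 h3, ?_,
    by simp [h3, add_comm], h4⟩
  · rw [tru, tru, h1, h2, pnd_push fun x hx => (hl x hx).1, add_assoc]
  · have := mass_push (n := n) (l := l) (fun y => len y * (dep y + 1)) s.1.get a
    unfold pot
    rw [h1]
    omega
  · intro z hz
    rw [h1, push_of_notMem, hc z hz]
    rintro x hx rfl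
    have := hl x hx
    rcases hz with hz | hz
    · omega
    · simp [this.2] at hz

/-- The flush of one item. `X` bounds the true flows. -/
theorem flushP_tri (h : Items n cs re len dep H D) {s : Fs} {z X : ℕ} (hz : z < n)
    (hX : ∀ e, (tru cs re n s e).natAbs ≤ X) (hB : X + pot n len dep s ≤ c.B) :
    Tri c (flushP cs re s z) fun s' t => s'.1.get = flush cs s.1.get z ∧
      (∀ e, tru cs re n s' e = tru cs re n s e) ∧
      (∀ e, re z ≠ some e → s'.2.1.get e = s.2.1.get e) ∧
      pot n len dep s' + (s.1.get z).natAbs * len z ≤ pot n len dep s ∧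
      s'.2.2 = ((cs z).map Prod.fst).reverse ++ s.2.2 ∧ t ≤ 2 * H := by
  have a0 := mass_flush_dep hz (h.sub z hz) (h.lt z hz) s.1.get
  have a1 := mass_zero hz (fun y => len y * (dep y + 1)) s.1.get
  have a2 := Nat.mul_le_mul_left (s.1.get z).natAbs (nsum_weight (h.sub z hz) (h.lt z hz))
  have a3 := h.hops z hz
  have key : ∀ x : Arr ℤ, (∀ e, x.get e = s.2.1.get e + if re z = some e then s.1.get z else 0) →
      Tri c (stepP (s.1.set z 0, x, s.2.2) (s.1.get z) (cs z)) fun s' t =>
      s'.1.get = flush cs s.1.get z ∧ (∀ e, tru cs re n s' e = tru cs re n s e) ∧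
      (∀ e, re z ≠ some e → s'.2.1.get e = s.2.1.get e) ∧
      pot n len dep s' + (s.1.get z).natAbs * len z ≤ pot n len dep s ∧
      s'.2.2 = ((cs z).map Prod.fst).reverse ++ s.2.2 ∧ t ≤ 2 * H := by
    intro x hx
    refine (stepP_raw h.one_le (fun y hy => (h.dag z hz y hy).trans hz) ?_).mono ?_
    · simp only [Arr.set_get_fun]
      unfold pot at hB
      rw [mul_add] at a2
      omega
    · rintro s' t ⟨h1, h2, h3, h4⟩
      have h1' : s'.1.get = flush cs s.1.get z := by rw [h1]; rfl
      refine ⟨h1', fun e => ?_, fun e he => by rw [h2]; simp [hx, he], ?_, h3, by omega⟩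
      · rw [tru, tru, h1', h2, pnd_flush h.dag hz, hx]; ring
      · unfold pot; rw [h1']; exact a0
  unfold flushP
  cases hr : re z with
  | none =>
    simp only [Option.elim, Tri_bind, Tri_pure, zero_add]
    rw [← hr]
    exact key _ fun e => by simp [hr]
  | some e =>
    simp only [Option.elim, Tri_bind, Tri_pure, Tri_inum, zero_add]
    rw [← hr]
    refine ⟨?_, key _ fun e' => ?_⟩
    · have b1 := hX e
      have b2 := h.pnd_le (Arr.mk (flush cs s.1.get z), s.2) e
      have b3 := pnd_flush (re := re) h.dag hz s.1.get e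
      simp only [hr, if_true] at b3
      unfold tru at b1
      unfold pot at b2 hB
      simp only at b2
      omega
    · rw [Arr.get_set, hr]
      by_cases q : e' = e
      · simp [q]
      · simp [q, Ne.symm q]

theorem Qu.flush (h : Items n cs re len dep H D) {s s' : Fs} {z : ℕ} (hz : z < n)
    (h0 : ∀ y ∈ s.2.2, y < n)
    (hq : ∀ y < n, bad y = false → th < (s.1.get y).natAbs * len y → y = z ∨ y ∈ s.2.2)
    (h1 : s'.1.get = flush cs s.1.get z)
    (h2 : s'.2.2 = ((cs z).map Prod.fst).reverse ++ s.2.2) : Qu n len bad th s' := by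
  refine Qu.push h0 (fun y hy hb ht => ?_) (fun x hx => (h.dag z hz x hx).trans hz) h1 h2
  by_cases e : y = z
  · subst e; simp at ht
  · rw [Function.update_of_ne e] at ht
    exact (hq y hy hb ht).resolve_left e

theorem flush_of_zero {F : ℕ → ℤ} {z : ℕ} (h : F z = 0) : flush cs F z = F := by
  funext y
  rw [flush, push_apply, h, ssum_congr (v' := fun _ => 0) fun _ _ => by simp, ← h,
    Function.update_eq_self]
  simp [ssum, h]

/-- The flush of a list `l` that contains all items that have lost their validity; `old` are the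
items that were valid before. -/
theorem flushAll_tri (h : Items n cs re len dep H D) {s : Fs} {l : List ℕ} {X E : ℕ}
    (old : ℕ → Prop) (hl : ∀ z ∈ l, z < n ∧ dep z < E)
    (ho : ∀ z, old z → z < n ∧ (∀ x ∈ cs z, old x.1) ∧ (bad z = true → z ∈ l))
    (hc : ∀ z, ¬ old z → s.1.get z = 0) (hq : Qu n len bad th s)
    (hX : ∀ e, (tru cs re n s e).natAbs ≤ X) (hB : X + pot n len dep s ≤ c.B) :
    Tri c (flushAll cs re dep E s l) fun s' t => (∀ e, tru cs re n s' e = tru cs re n s e) ∧
      (∀ e, (∀ z ∈ l, re z ≠ some e) → s'.2.1.get e = s.2.1.get e) ∧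
      pot n len dep s' ≤ pot n len dep s ∧ Qu n len bad th s' ∧ Clean n bad s' ∧
      t + s'.2.2.length ≤ s.2.2.length + E * (l.length * (3 * H + 1) + 1) := by
  let P : Fs → Prop := fun s' => (∀ e, tru cs re n s' e = tru cs re n s e) ∧
      (∀ e, (∀ z ∈ l, re z ≠ some e) → s'.2.1.get e = s.2.1.get e) ∧
      pot n len dep s' ≤ pot n len dep s ∧ Qu n len bad th s' ∧ ∀ z, ¬ old z → s'.1.get z = 0
  refine (Tri.iterM (fun i s' t => P s' ∧ (∀ z ∈ l, E ≤ dep z + i → s'.1.get z = 0) ∧
    t + s'.2.2.length ≤ s.2.2.length + i * (l.length * (3 * H + 1) + 1))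
    ⟨⟨fun _ => rfl, fun _ _ => rfl, le_rfl, hq, hc⟩, fun z hz q => ?_, by simp⟩ ?_).mono ?_
  · have := (hl z hz).2; omega
  · intro i s₁ t₁ _ ⟨p1, p2, p3⟩
    refine (Tri.foldM (fun pre s' t => P s' ∧
      (∀ z ∈ l, E ≤ dep z + i ∨ (z ∈ pre ∧ dep z + i + 1 = E) → s'.1.get z = 0) ∧
      t + s'.2.2.length ≤ s₁.2.2.length + pre.length * (3 * H + 1))
      ⟨p1, fun z hz q => p2 z hz (by simpa using q), by simp⟩ ?_).mono ?_
    · intro pre z rest s₂ t₂ e ⟨⟨q1, q2, q3, q4, q5⟩, q6, q7⟩
      have hz : z ∈ l := by simp [e]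
      have hn := (hl z hz).1
      simp only [Tri_ite, Tri_pure, List.length_append, List.length_singleton, add_mul]
      refine ⟨fun hd => ?_, fun hd => ⟨⟨q1, q2, q3, q4, q5⟩, fun y hy q => q6 y hy ?_, by omega⟩⟩
      · refine (flushP_tri h hn (X := X) (fun e => by rw [q1]; exact hX e) (by omega)).mono ?_
        rintro s₃ t₃ ⟨r1, r2, r3, r4, r5, r6⟩
        have a3 := h.hops z hn
        refine ⟨⟨fun e => by rw [r2, q1], fun e he => by rw [r3 e (he z hz), q2 e he], by omega,
          Qu.flush h hn q4.lt (fun y a b d => Or.inr (q4.mem y a b d)) r1 r5,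
          fun y hy => ?_⟩, fun y hy q => ?_, ?_⟩
        · by_cases a : old z
          · rw [r1, flush_of_notMem (fun e : y = z => hy (e ▸ a)), q5 y hy]
            rintro x hx rfl
            exact hy ((ho z a).2.1 x hx)
          · rw [r1, flush_of_zero (q5 z a), q5 y hy]
        · by_cases e : y = z
          · rw [r1, e, flush_self (h.dag z hn)]
          · rw [r1, flush_of_notMem e, q6 y hy (q.imp_right fun q => ⟨by simpa [e] using q.1, q.2⟩)]
            rintro x hx rfl
            have := h.lt z hn x hx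
            omega
        · simp only [r5, List.length_append, List.length_reverse, List.length_map]
          omega
      · refine q.imp_right fun q => ⟨?_, q.2⟩
        rcases List.mem_append.1 q.1 with a | a
        · exact a
        · rw [List.mem_singleton.1 a] at q
          exact (hd q.2).elim
    · rintro s' t ⟨q1, q2, q3⟩
      refine ⟨q1, fun z hz q => q2 z hz ?_, by rw [add_mul]; omega⟩
      by_cases a : E ≤ dep z + i
      · exact Or.inl a
      · exact Or.inr ⟨hz, by omega⟩
  · rintro s' t ⟨⟨q1, q2, q3, q4, q5⟩, q6, q7⟩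
    refine ⟨q1, q2, q3, q4, fun z hz => ?_, q7⟩
    by_cases a : old z
    · obtain ⟨a1, -, a2⟩ := ho z a
      exact q6 z (a2 (hz.resolve_left (by omega))) (by omega)
    · exact q5 z a

/-- The specification of `drain`. The time is paid by the queue and the potential. -/
theorem drain_tri (h : Items n cs re len dep H D) {s : Fs} {X fuel : ℕ} (hd : Down n cs bad)
    (hc : Clean n bad s) (hq : Qu n len bad th s)
    (hX : ∀ e, (tru cs re n s e).natAbs ≤ X) (hB : X + pot n len dep s ≤ c.B)
    (hf : s.2.2.length + (H + 1) * pot n len dep s < fuel) :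
    Tri c (drain fuel cs re len bad th s) fun r t =>
      (∀ e, tru cs re n r.2 e = tru cs re n s e) ∧ r.2.2.1.get = s.2.1.get ∧
      pot n len dep r.2 ≤ pot n len dep s ∧ Qu n len bad th r.2 ∧ Clean n bad r.2 ∧
      (th + 1) * (t + r.2.2.2.length) + 3 * H * pot n len dep r.2 ≤
        (th + 1) * s.2.2.length + 3 * H * pot n len dep s ∧
      r.1.elim (r.2.2.2 = []) fun z => z < n ∧ bad z = false ∧ (re z).isSome = true ∧
        th < (r.2.1.get z).natAbs * len z := by
  refine Tri.loopM (fun s' t => (∀ e, tru cs re n s' e = tru cs re n s e) ∧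
      s'.2.1.get = s.2.1.get ∧ pot n len dep s' ≤ pot n len dep s ∧ Qu n len bad th s' ∧
      Clean n bad s' ∧ (th + 1) * (t + s'.2.2.length) + 3 * H * pot n len dep s' ≤
        (th + 1) * s.2.2.length + 3 * H * pot n len dep s)
    (fun s' => s'.2.2.length + (H + 1) * pot n len dep s') ?_
    ⟨fun _ => rfl, rfl, le_rfl, hq, hc, by simp⟩ hf
  rintro ⟨F, x, q⟩ t ⟨q1, q2, q3, q4, q5, q6⟩
  cases q with
  | nil => exact ⟨q1, q2, q3, q4, q5, q6, rfl⟩
  | cons z q =>
    have hz : z < n := q4.lt z (by simp)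
    simp only [drainF, caseL_cons, Tri_ite, Tri_pure, Tri_bind, Sum.elim_inl, Sum.elim_inr,
      add_zero]
    refine ⟨fun hb => ⟨fun hr => ⟨q1, q2, q3, q4, q5, q6, hz, hb.1, hr, hb.2⟩, fun hr => ?_⟩,
      fun hb => ⟨⟨q1, q2, q3, ⟨fun y hy => q4.lt y (by simp [hy]), fun y a b d => ?_⟩, q5, ?_⟩,
        Nat.add_lt_add_right (by simp) _⟩⟩
    · refine (flushP_tri h (s := (F, x, q)) hz (X := X) (fun e => (q1 e).symm ▸ hX e)
        (le_trans (Nat.add_le_add_left q3 _) hB)).mono ?_
      rintro s₃ t₃ ⟨r1, r2, r3, r4, r5, r6⟩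
      have a3 := h.hops z hz
      have a4 : s₃.2.2.length ≤ q.length + H := by
        simp only [r5, List.length_append, List.length_reverse, List.length_map]; omega
      have a5 : pot n len dep s₃ + (th + 1) ≤ pot n len dep (F, x, z :: q) := by
        have := hb.2
        exact le_trans (by simp only at r4 ⊢; omega) r4
      refine ⟨⟨fun e => (r2 e).trans (q1 e), ?_, by omega, Qu.flush h (s := (F, x, q)) hz
        (fun y hy => q4.lt y (by simp [hy])) (fun y a b d => by simpa using q4.mem y a b d) r1 r5,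
        fun y hy => ?_, ?_⟩, ?_⟩
      · rw [← q2]
        funext e
        exact r3 e fun a => by simp [a] at hr
      · have b : y ≠ z := by
          rintro rfl
          rcases hy with hy | hy
          · omega
          · simp [hb.1] at hy
        rw [r1, flush_of_notMem b]
        · exact q5 y hy
        rintro v hv rfl
        rcases hy with hy | hy
        · have := h.dag z hz v hv; omega
        · simp [hd z hz hb.1 v hv] at hy
      · have b1 := Nat.mul_le_mul_left (3 * H) a5
        have b2 : (th + 1) * (t + t₃ + 1 + s₃.2.2.length) ≤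
            (th + 1) * (t + (q.length + 1) + 3 * H) := Nat.mul_le_mul_left _ (by omega)
        simp only [List.length_cons] at q6
        nlinarith
      · have b1 := Nat.mul_le_mul_left (H + 1) a5
        simp only [List.length_cons]
        nlinarith
    · have := q4.mem y a b d
      rcases List.mem_cons.1 this with rfl | e
      · exact (hb ⟨b, d⟩).elim
      · exact e
    · refine le_trans (le_of_eq ?_) q6
      simp only [List.length_cons, pot]
      ring

end Vale.Agent.P305Q
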